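import Vale.Agent.P281.H713.Defs

/-!
# P281, project T-Delta (helper64): theta functions of families of divisors on tori, statements of the
blocks (FROZEN)

`V = ℂ^d`, `P t : ℝ^n → V` a family of lattices, `Eq` the local equations of a family of periodic
divisors of `V`. Results: entire functions `θ t` with these divisors, canonical third logarithmic
derivatives `phi (θ t)`, meromorphic in `(t, v)`, and estimates of `phi`.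
-/

open Set Filter Metric MeasureTheory
open scoped Topology ContDiff

noncomputable section

namespace Vale.Agent.P281.H64.TD

/-- `ℂ^d` with its Hermitian inner product. -/
abbrev Vd (d : ℕ) : Type := EuclideanSpace ℂ (Fin d)

section

variable {V : Type} [NormedAddCommGroup V] [NormedSpace ℂ V]

/-- The third logarithmic derivative `D_a D_b D_c log θ` at `v`. -/
def phi (θ : V → ℂ) (v a b c : V) : ℂ :=
  fderiv ℂ (fun z => fderiv ℂ (fun y => fderiv ℂ θ y c / θ y) z b) v a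

/-- The integral vector `m` as a real vector. -/
def zr {n : ℕ} (m : Fin n → ℤ) : Fin n → ℝ := fun i => (m i : ℝ)

end

/-- `θ` is an entire function with the divisor given by the local equations `Eq`, and the function
`|θ|² exp (-⟨A v, v⟩)` is periodic. -/
structure IsTheta {n d : ℕ} (P : (Fin n → ℝ) ≃L[ℝ] Vd d) (Eq : Vd d → (Vd d → ℂ) → Prop)
    (θ : Vd d → ℂ) (A : Vd d →L[ℂ] Vd d) : Prop where
  ent : Differentiable ℂ θ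
  ne : ∃ v, θ v ≠ 0
  eqn : ∀ v g, Eq v g → ∃ e : Vd d → ℂ, AnalyticAt ℂ e v ∧ e v ≠ 0 ∧
    ∀ᶠ z in 𝓝 v, θ z = e z * g z
  symm : ∀ v w, inner ℂ (A v) w = inner ℂ v (A w)
  per : ∀ v (m : Fin n → ℤ), ‖θ (v + P (zr m))‖ ^ 2 *
      Real.exp (-(inner ℂ (A (v + P (zr m))) (v + P (zr m))).re) =
    ‖θ v‖ ^ 2 * Real.exp (-(inner ℂ (A v) v).re)

/-- Local equations `Eq (t, v) G` of a family of divisors of `V`, parametrized by `T`, with periods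
`P t (ℤ^n)`. -/
structure IsDivFam {p n d : ℕ} (T : Set (Fin p → ℂ)) (P : (Fin p → ℂ) → ((Fin n → ℝ) ≃L[ℝ] Vd d))
    (Eq : (Fin p → ℂ) × Vd d → ((Fin p → ℂ) × Vd d → ℂ) → Prop) : Prop where
  isOpen : IsOpen T
  hol : ∀ x, DifferentiableOn ℂ (fun t => P t x) T
  ex : ∀ t ∈ T, ∀ v, ∃ G, Eq (t, v) G
  an : ∀ z G, z.1 ∈ T → Eq z G → AnalyticAt ℂ G z
  near : ∀ z G, z.1 ∈ T → Eq z G → ∀ᶠ z' in 𝓝 z, Eq z' G
  unit : ∀ z G G', z.1 ∈ T → Eq z G → Eq z G' → ∃ e, AnalyticAt ℂ e z ∧ e z ≠ 0 ∧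
    ∀ᶠ z' in 𝓝 z, G' z' = e z' * G z'
  slice : ∀ t ∈ T, ∀ v G, Eq (t, v) G → ¬ ∀ᶠ v' in 𝓝 v, G (t, v') = 0
  per : ∀ t ∈ T, ∀ v G, Eq (t, v) G → ∀ m : Fin n → ℤ,
    Eq (t, v + P t (zr m)) fun z => G (z.1, z.2 - P z.1 (zr m))

/-- The local equations of the divisor number `t`. -/
def sl {p d : ℕ} (Eq : (Fin p → ℂ) × Vd d → ((Fin p → ℂ) × Vd d → ℂ) → Prop) (t : Fin p → ℂ) :
    Vd d → (Vd d → ℂ) → Prop := fun v g => ∃ G, Eq (t, v) G ∧ g = fun v' => G (t, v')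

/-- Second derivatives in the directions `a`, `b` of `V`. -/
def dd {p d : ℕ} (B : (Fin p → ℂ) × Vd d → ℝ) (z : (Fin p → ℂ) × Vd d) (a b : Vd d) : ℝ :=
  fderiv ℝ (fun z' => fderiv ℝ B z' (0, b)) z (0, a)

/-- The Levi form `∑ ∂_j ∂̄_k B w_j w̄_k` in the directions of `V`. -/
def lv {p d : ℕ} (B : (Fin p → ℂ) × Vd d → ℝ) (z : (Fin p → ℂ) × Vd d) (w : Vd d) : ℝ :=
  (dd B z w w + dd B z (Complex.I • w) (Complex.I • w)) / 4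

/-- `∑_j ∂_j ∂̄_j B`, in the directions of `V`. -/
def lap {p d : ℕ} (B : (Fin p → ℂ) × Vd d → ℝ) (z : (Fin p → ℂ) × Vd d) : ℝ :=
  ∑ j : Fin d, lv B z (EuclideanSpace.single j 1)

/-- **A1**: the Poisson equation on the tori `V / P t (ℤ^n)`, with parameters: `u` is smooth in
`(t, v)`. (In the coordinates `v = P t x` this is a family of equations
`∑ q_ij(t) ∂_i ∂_j u = ρ - κ` on `ℝ^n / ℤ^n`: Fourier series
`u = ∑_{m ≠ 0} ρ̂_m(t) / (-4 π² q(t)(m)) e^{2 π i m x}`.) -/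
def PoisStmt : Prop :=
  ∀ (p n d : ℕ) (T : Set (Fin p → ℂ)) (P : (Fin p → ℂ) → ((Fin n → ℝ) ≃L[ℝ] Vd d))
    (ρ : (Fin p → ℂ) × Vd d → ℝ), IsOpen T → (∀ x, DifferentiableOn ℂ (fun t => P t x) T) →
    ContDiffOn ℝ ∞ ρ (T ×ˢ univ) →
    (∀ t ∈ T, ∀ v (m : Fin n → ℤ), ρ (t, v + P t (zr m)) = ρ (t, v)) → ∀ t₀ ∈ T,
    ∃ T' ⊆ T, IsOpen T' ∧ t₀ ∈ T' ∧ ∃ (u : (Fin p → ℂ) × Vd d → ℝ) (κ : (Fin p → ℂ) → ℝ),
      ContDiffOn ℝ ∞ u (T' ×ˢ univ) ∧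
      (∀ t ∈ T', ∀ v (m : Fin n → ℤ), u (t, v + P t (zr m)) = u (t, v)) ∧
      ∀ t ∈ T', ∀ v, lap u (t, v) = ρ (t, v) - κ t

/-- **A1'**: a smooth periodic function with constant Laplacian is constant. -/
def PerHarmStmt : Prop :=
  ∀ (n d : ℕ) (P : (Fin n → ℝ) ≃L[ℝ] Vd d) (B : Vd d → ℝ) (κ : ℝ), ContDiff ℝ ∞ B →
    (∀ v (m : Fin n → ℤ), B (v + P (zr m)) = B v) →
    (∀ v, ∑ j : Fin d, (fderiv ℝ (fun z => fderiv ℝ B z (EuclideanSpace.single j 1)) v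
        (EuclideanSpace.single j 1) +
      fderiv ℝ (fun z => fderiv ℝ B z (Complex.I • EuclideanSpace.single j (1 : ℂ))) v
        (Complex.I • EuclideanSpace.single j (1 : ℂ))) = κ) → ∀ v, B v = B 0

/-- The periodic function `L` is `log |G|² - ϕ` with `ϕ` smooth, for all local equations `G`. -/
def IsMet {p n d : ℕ} (T : Set (Fin p → ℂ)) (P : (Fin p → ℂ) → ((Fin n → ℝ) ≃L[ℝ] Vd d))
    (Eq : (Fin p → ℂ) × Vd d → ((Fin p → ℂ) × Vd d → ℂ) → Prop)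
    (L : (Fin p → ℂ) × Vd d → ℝ) : Prop :=
  (∀ t ∈ T, ∀ v G, Eq (t, v) G → ∃ (ϕ : (Fin p → ℂ) × Vd d → ℝ) (N : Set ((Fin p → ℂ) × Vd d)),
    IsOpen N ∧ (t, v) ∈ N ∧ ContDiffOn ℝ ∞ ϕ N ∧
      ∀ z ∈ N, G z ≠ 0 → L z = Real.log (‖G z‖ ^ 2) - ϕ z) ∧
  ∀ t ∈ T, ∀ v G, Eq (t, v) G → G (t, v) ≠ 0 → ∀ m : Fin n → ℤ,
    L (t, v + P t (zr m)) = L (t, v)

/-- **A2**: `L = ∑_i χ_i log |G_i|²`, with a partition of unity `χ_i(x)` of `ℝ^n / ℤ^n`, in the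
coordinates `v = P t x`, and `G_i` local equations near a finite number of points of `{t₀} × V`,
translated by the periods. -/
def MetStmt : Prop :=
  ∀ (p n d : ℕ) (T : Set (Fin p → ℂ)) (P : (Fin p → ℂ) → ((Fin n → ℝ) ≃L[ℝ] Vd d))
    (Eq : (Fin p → ℂ) × Vd d → ((Fin p → ℂ) × Vd d → ℂ) → Prop), IsDivFam T P Eq → ∀ t₀ ∈ T,
    ∃ T' ⊆ T, IsOpen T' ∧ t₀ ∈ T' ∧ ∃ L, IsMet T' P Eq L

/-- As `IsMet`, and the Levi form of the local potentials is constant in `v`: `∂ ∂̄ B = A t`. -/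
def IsPsi {p n d : ℕ} (T : Set (Fin p → ℂ)) (P : (Fin p → ℂ) → ((Fin n → ℝ) ≃L[ℝ] Vd d))
    (Eq : (Fin p → ℂ) × Vd d → ((Fin p → ℂ) × Vd d → ℂ) → Prop)
    (ψ : (Fin p → ℂ) × Vd d → ℝ) (A : (Fin p → ℂ) → (Vd d →L[ℂ] Vd d)) : Prop :=
  (∀ t ∈ T, ∀ v G, Eq (t, v) G → ∃ (B : (Fin p → ℂ) × Vd d → ℝ) (N : Set ((Fin p → ℂ) × Vd d)),
    IsOpen N ∧ (t, v) ∈ N ∧ ContDiffOn ℝ ∞ B N ∧
      (∀ z ∈ N, G z ≠ 0 → ψ z = Real.log (‖G z‖ ^ 2) - B z) ∧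
      ∀ z ∈ N, ∀ w, lv B z w = (inner ℂ (A z.1 w) w).re) ∧
  (∀ t ∈ T, ∀ v G, Eq (t, v) G → G (t, v) ≠ 0 → ∀ m : Fin n → ℤ,
    ψ (t, v + P t (zr m)) = ψ (t, v)) ∧
  ContinuousOn A T ∧ ∀ t ∈ T, ∀ v w, inner ℂ (A t v) w = inner ℂ v (A t w)

/-- **A3a**: `ψ = L + u`, `lap u = lap ϕ - κ`; the coefficients `∂_j ∂̄_k (ϕ - u)` are periodic and
harmonic, so constant in `v`. -/
def PsiStmt : Prop :=
  PoisStmt → PerHarmStmt → MetStmt →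
  ∀ (p n d : ℕ) (T : Set (Fin p → ℂ)) (P : (Fin p → ℂ) → ((Fin n → ℝ) ≃L[ℝ] Vd d))
    (Eq : (Fin p → ℂ) × Vd d → ((Fin p → ℂ) × Vd d → ℂ) → Prop), IsDivFam T P Eq → ∀ t₀ ∈ T,
    ∃ T' ⊆ T, IsOpen T' ∧ t₀ ∈ T' ∧ ∃ ψ A, IsPsi T' P Eq ψ A

/-- **A3b**: for fixed `t`: locally `B - ⟨A v, v⟩ = 2 Re a`, `a` holomorphic, and the functions
`G exp (-a)` (unique up to constants of modulus 1) are glued over `V`. -/
def GlueStmt : Prop :=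
  ∀ (p n d : ℕ) (T : Set (Fin p → ℂ)) (P : (Fin p → ℂ) → ((Fin n → ℝ) ≃L[ℝ] Vd d))
    (Eq : (Fin p → ℂ) × Vd d → ((Fin p → ℂ) × Vd d → ℂ) → Prop) (ψ : (Fin p → ℂ) × Vd d → ℝ)
    (A : (Fin p → ℂ) → (Vd d →L[ℂ] Vd d)), IsDivFam T P Eq → IsPsi T P Eq ψ A → ∀ t ∈ T,
    ∃ θ : Vd d → ℂ, IsTheta (P t) (sl Eq t) θ (A t) ∧ ∀ v, θ v ≠ 0 →
      ‖θ v‖ ^ 2 * Real.exp (-(inner ℂ (A t v) v).re) = Real.exp (ψ (t, v))

/-- **A3c**: `phi θ = ∂_v³ ψ` (Wirtinger derivatives) is smooth off the divisor, holomorphic in `v`,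
and `∂_t̄ ∂_v² ψ` is holomorphic in `v` and periodic, so constant in `v`: `phi` is holomorphic in
`(t, v)`; near the divisor, `phi = ∂_v³ log G - ∂_v³ B`, with `∂_v³ B` holomorphic by continuity. -/
def PhiHolStmt : Prop :=
  ∀ (p n d : ℕ) (T : Set (Fin p → ℂ)) (P : (Fin p → ℂ) → ((Fin n → ℝ) ≃L[ℝ] Vd d))
    (Eq : (Fin p → ℂ) × Vd d → ((Fin p → ℂ) × Vd d → ℂ) → Prop) (ψ : (Fin p → ℂ) × Vd d → ℝ)
    (A : (Fin p → ℂ) → (Vd d →L[ℂ] Vd d)) (θ : (Fin p → ℂ) → Vd d → ℂ), IsDivFam T P Eq →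
    IsPsi T P Eq ψ A → (∀ t ∈ T, IsTheta (P t) (sl Eq t) (θ t) (A t) ∧ ∀ v, θ t v ≠ 0 →
      ‖θ t v‖ ^ 2 * Real.exp (-(inner ℂ (A t v) v).re) = Real.exp (ψ (t, v))) →
    ∀ t ∈ T, ∀ v G, Eq (t, v) G → ∀ a b c, ∃ K : (Fin p → ℂ) × Vd d → ℂ, AnalyticAt ℂ K (t, v) ∧
      ∀ᶠ z in 𝓝 (t, v), G z ≠ 0 → G z ^ 3 * phi (θ z.1) z.2 a b c = K z

/-- **A3** (assembly of A3a, A3b, A3c). -/
def ThFamStmt : Prop :=
  ∀ (p n d : ℕ) (T : Set (Fin p → ℂ)) (P : (Fin p → ℂ) → ((Fin n → ℝ) ≃L[ℝ] Vd d))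
    (Eq : (Fin p → ℂ) × Vd d → ((Fin p → ℂ) × Vd d → ℂ) → Prop), IsDivFam T P Eq → ∀ t₀ ∈ T,
    ∃ T' ⊆ T, IsOpen T' ∧ t₀ ∈ T' ∧
      ∃ (θ : (Fin p → ℂ) → Vd d → ℂ) (A : (Fin p → ℂ) → (Vd d →L[ℂ] Vd d)), ContinuousOn A T' ∧
        (∀ t ∈ T', IsTheta (P t) (sl Eq t) (θ t) (A t)) ∧
        ∀ t ∈ T', ∀ v G, Eq (t, v) G → ∀ a b c, ∃ K : (Fin p → ℂ) × Vd d → ℂ,
          AnalyticAt ℂ K (t, v) ∧ ∀ᶠ z in 𝓝 (t, v), G z ≠ 0 →
            G z ^ 3 * phi (θ z.1) z.2 a b c = K z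

/-- **A4** (elementary): off the divisor, `phi θ v` is trilinear and symmetric, analytic in `v`; it is
the third derivative of every local logarithm of `θ`; and the rule for affine maps. -/
def PhiStmt : Prop :=
  ∀ (d : ℕ) (θ : Vd d → ℂ), Differentiable ℂ θ →
    (∀ v, θ v ≠ 0 → (∀ a b c, AnalyticAt ℂ (fun z => phi θ z a b c) v) ∧
      (∀ a a' b c, phi θ v (a + a') b c = phi θ v a b c + phi θ v a' b c) ∧
      (∀ (s : ℂ) a b c, phi θ v (s • a) b c = s * phi θ v a b c) ∧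
      (∀ a b c, phi θ v a b c = phi θ v b a c) ∧ (∀ a b c, phi θ v a b c = phi θ v a c b) ∧
      (∀ l : Vd d → ℂ, (∀ᶠ z in 𝓝 v, θ z = Complex.exp (l z)) → AnalyticAt ℂ l v → ∀ a b c,
        phi θ v a b c = fderiv ℂ (fun z => fderiv ℂ (fun y => fderiv ℂ l y c) z b) v a) ∧
      ∀ (θ' e : Vd d → ℂ), AnalyticAt ℂ e v → e v ≠ 0 → (∀ᶠ z in 𝓝 v, θ' z = e z * θ z) →
        ∀ a b c, phi θ' v a b c = phi e v a b c + phi θ v a b c) ∧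
    ∀ (G : Vd d ≃L[ℂ] Vd d) (x v a b c : Vd d), phi (fun z => θ (G z + x)) v a b c =
      phi θ (G v + x) (G a) (G b) (G c)

/-- **A5**: `θ(v + λ) = c_λ exp ⟨A λ, v⟩ θ(v)`, so `Im ⟨A λ, λ'⟩ ∈ π ℤ`. -/
def IntStmt : Prop :=
  ∀ (n d : ℕ) (P : (Fin n → ℝ) ≃L[ℝ] Vd d) (Eq : Vd d → (Vd d → ℂ) → Prop) (θ : Vd d → ℂ)
    (A : Vd d →L[ℂ] Vd d), (∀ v, ∃ g, Eq v g) →
    (∀ v g (m : Fin n → ℤ), Eq v g → Eq (v + P (zr m)) fun z => g (z - P (zr m))) →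
    IsTheta P Eq θ A → ∀ m m' : Fin n → ℤ, ∃ k : ℤ,
      (inner ℂ (A (P (zr m))) (P (zr m'))).im = Real.pi * k

/-- **A5'** (linear algebra): the trace of `A`, in coordinates in which the polarization `Q` is the
imaginary part of the inner product, is determined by `Q` and the form `Im ⟨A P x, P x'⟩`. -/
def TrStmt : Prop :=
  ∀ (n d : ℕ) (Q : (Fin n → ℝ) → (Fin n → ℝ) → ℝ) (P P' : (Fin n → ℝ) ≃L[ℝ] Vd d)
    (A A' : Vd d →L[ℂ] Vd d), (∀ x x', (inner ℂ (P x) (P x')).im = Q x x') →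
    (∀ x x', (inner ℂ (P' x) (P' x')).im = Q x x') →
    (∀ v w, inner ℂ (A v) w = inner ℂ v (A w)) → (∀ v w, inner ℂ (A' v) w = inner ℂ v (A' w)) →
    (∀ x x', (inner ℂ (A (P x)) (P x')).im = (inner ℂ (A' (P' x)) (P' x')).im) →
    LinearMap.trace ℂ (Vd d) A = LinearMap.trace ℂ (Vd d) A'

/-- **A6**: uniqueness: `θ' / θ = exp q`, `q` a polynomial of degree at most 2. -/
def UniqStmt : Prop :=
  ∀ (n d : ℕ) (P : (Fin n → ℝ) ≃L[ℝ] Vd d) (Eq : Vd d → (Vd d → ℂ) → Prop) (θ θ' : Vd d → ℂ)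
    (A A' : Vd d →L[ℂ] Vd d), (∀ v, ∃ g, Eq v g) → IsTheta P Eq θ A → IsTheta P Eq θ' A' →
    A = A' ∧ ∀ v, θ v ≠ 0 → ∀ a b c, phi θ v a b c = phi θ' v a b c

/-- **A7**: the estimate, with constants depending only on `Q` and the trace of `A`. Normalise
`ψ = log |θ|² - ⟨A v, v⟩ ≤ 0` with supremum `0`; the covering radius `R` of the lattice is at most
`C δ^(1-n)` (points of a segment at distances `4 δ`); the mean of `-ψ` over a ball of radius `2 R`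
about a point with `ψ = 0` is at most `C R²` (Jensen); so `-ψ(v₀) ≤ C δ^(-N)`, and
Borel-Carathéodory for `log θ` on `ball v₀ δ`. -/
def EstStmt : Prop :=
  ∀ (n d : ℕ) (Q : (Fin n → ℝ) → (Fin n → ℝ) → ℝ) (c : ℝ), ∃ (C : ℝ) (N₀ : ℕ),
    ∀ (P : (Fin n → ℝ) ≃L[ℝ] Vd d) (Eq : Vd d → (Vd d → ℂ) → Prop) (θ : Vd d → ℂ)
      (A : Vd d →L[ℂ] Vd d), (∀ x x', (inner ℂ (P x) (P x')).im = Q x x') → IsTheta P Eq θ A →
      ‖LinearMap.trace ℂ (Vd d) A‖ ≤ c → ∀ (v₀ : Vd d) (δ : ℝ), 0 < δ → δ ≤ 1 →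
      (∀ v ∈ ball v₀ δ, θ v ≠ 0) →
      (∀ v ∈ ball v₀ δ, ∀ m : Fin n → ℤ, v + P (zr m) ∈ ball v₀ δ → m = 0) →
      ∀ a b c, ‖phi θ v₀ a b c‖ * δ ^ N₀ ≤ C * (‖a‖ * ‖b‖ * ‖c‖)

/-- The map `Φ : v ↦ (cubic form)` has rank at least `r` at `v`. -/
def RkGE {V : Type} [NormedAddCommGroup V] [NormedSpace ℂ V] (r : ℕ)
    (Φ : V → V → V → V → ℂ) (v : V) : Prop :=
  ∃ a b c : Fin r → V, Function.Surjective fun (ξ : V) (k : Fin r) =>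
    fderiv ℂ (fun z => Φ z (a k) (b k) (c k)) v ξ

/-- **A8**: if the rank of `phi θ` is at most `r`, then periodic functions holomorphic off `θ = 0`
have at most `r` independent quotients. Proof: move `v` to a point where the rank `r'` of `phi` is
locally constant; `K = ker (dφ)_v`. By the symmetry of `D⁴ log θ`, `K` is constant along the fibre of
`phi` through `v`, which is so the affine space `v + K` near `v`. On `v + K`, `θ = exp (cubic)` near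
`v`, so everywhere: `v + K` is disjoint from the divisor and `phi` is constant on it, and on the
closure of `v + K + Λ` near `v`; so (a sequence in this group converging to `0`, orthogonal to `K`,
would give a real direction `ξ` orthogonal to `K` with `D_ξ φ (v) = 0`) `K + Λ` is closed, and the
image of `v + K` in `V / Λ` is compact and disjoint from the divisor: the functions are constant on
`v + K` by the maximum principle. -/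
def LiouStmt : Prop :=
  ∀ (n d r : ℕ) (P : (Fin n → ℝ) ≃L[ℝ] Vd d) (Eq : Vd d → (Vd d → ℂ) → Prop) (θ : Vd d → ℂ)
    (A : Vd d →L[ℂ] Vd d), IsTheta P Eq θ A → (∀ v, θ v ≠ 0 → ¬ RkGE (r + 1) (phi θ) v) →
    ∀ S : Fin (r + 2) → Vd d → ℂ, (∀ b v, θ v ≠ 0 → AnalyticAt ℂ (S b) v) →
      (∀ b v (m : Fin n → ℤ), θ v ≠ 0 → S b (v + P (zr m)) = S b v) →
      ∀ v, θ v ≠ 0 → S 0 v ≠ 0 → ¬ Function.Surjective fun (ξ : Vd d) (k : Fin (r + 1)) =>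
        fderiv ℂ (fun z => S k.succ z / S 0 z) v ξ

end Vale.Agent.P281.H64.TD
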