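import Vale.Agent.P281.H64.TE.Spec
import Vale.Agent.P281.H64.TK.SpecT
import Vale.Agent.P281.H64.TD.SpecA
import Mathlib.Analysis.Normed.Module.Multilinear.Basic

/-!
# P281, project T-Delta (helper64): geometry, statements of the blocks
-/

open Set Filter Metric MeasureTheory Vale.Agent.P281 Vale.Agent.P281.H713 Vale.Agent.P272.K
open Vale.Agent.P281.MF Vale.Agent.P281.ISO Vale.Agent.P281.ELL Vale.Agent.P281.H713.TZ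
open Vale.Agent.P281.H64.Thin (IsThinSet)
open Vale.Agent.P281.H64.Gen (IsSmallSet IsSmall2 excSet NoExc ExcOne)
open Vale.Agent.P281.H64.TU (Tame KTame IsNondegR HasFormsT)
open Vale.Agent.P281.H603.TE (sub fsub core)

open scoped Topology ContDiff Manifold ComplexConjugate ComplexOrder ENNReal NNReal

noncomputable section

namespace Vale.Agent.P281.H64.TD

section TorM

variable (E E' : Type) [NormedAddCommGroup E] [NormedSpace ℂ E]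
  [NormedAddCommGroup E'] [NormedSpace ℂ E']
variable {X Y : Type} [TopologicalSpace X] [ChartedSpace E X]
  [TopologicalSpace Y] [ChartedSpace E' Y]
variable {V : Type} [NormedAddCommGroup V] [InnerProductSpace ℂ V] [FiniteDimensional ℂ V]

/-- The fibres of `f` over `Y ∖ S` are complex tori, or have finite étale coverings by complex tori:
`u a y : V → f⁻¹(y)` is the universal covering of `f⁻¹(y)`, `π a y` are the periods of the torus; the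
changes are affine and respect the polarized lattice of periods. -/
structure IsTorM {n : ℕ} (d : ℕ) (T : Tame (Fin d → ℂ) X) (f : X → Y) (S : Set Y)
    (Q : (Fin n → ℝ) → (Fin n → ℝ) → ℝ) {ι : Type} (U : ι → Set Y)
    (π : ι → Y → ((Fin n → ℝ) ≃L[ℝ] V)) (u : ι → Y → V → X) : Prop
    extends IsPeriodFamily E' S Q U π where
  dim : Module.finrank ℂ V = d
  mem : ∀ a, ∀ y ∈ U a, ∀ v, f (u a y v) = y
  surj : ∀ a x, f x ∈ U a → ∃ v, u a (f x) v = x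
  uhol : ∀ a, ∀ y ∈ U a, ∀ v,
    ContMDiffAt (𝓘(ℂ, E').prod 𝓘(ℂ, V)) 𝓘(ℂ, E) ω (fun z : Y × V => u a z.1 z.2) (y, v)
  chart : ∀ a, ∀ y ∈ U a, ∀ v, ∃ ζ : X → V, ContMDiffAt 𝓘(ℂ, E) 𝓘(ℂ, V) ω ζ (u a y v) ∧
    ζ (u a y v) = v ∧ (∀ᶠ z in 𝓝 (u a y v), u a (f z) (ζ z) = z) ∧
    (∀ᶠ z in 𝓝 (y, v), ζ (u a z.1 z.2) = z.2) ∧
    ∀ ξ : E, mfderiv 𝓘(ℂ, E) 𝓘(ℂ, E') f (u a y v) ξ = 0 →
      mfderiv 𝓘(ℂ, E) 𝓘(ℂ, V) ζ (u a y v) ξ = 0 → ξ = 0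
  per : ∀ a, ∀ y ∈ U a, ∀ v (m : Fin n → ℤ), u a y (v + π a y (zr m)) = u a y v
  trans : ∀ a b, ∀ y ∈ U a ∩ U b, ∀ v v', u a y v = u b y v' → ∃ (G : V ≃L[ℂ] V) (c : V),
    IsPeriodChange Q (π a y) (π b y) G ∧ G v + c = v' ∧ ∀ w, u b y (G w + c) = u a y w
  bound : ∀ r K : ℝ, 0 < r → 0 < K → ∃ A : ℝ, ∀ (a : ι) (q : (Fin d → ℂ) → X) (v₀ : Fin d → ℂ),
    IsPolydisc E f q v₀ r → T K q v₀ r → f (q v₀) ∈ U a → ∃ h : (Fin d → ℂ) → V,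
    DifferentiableOn ℂ h (ball v₀ r) ∧ (∀ v ∈ ball v₀ r, u a (f (q v₀)) (h v) = q v) ∧
    ∀ G : V ≃L[ℂ] V, (∀ x x', (inner ℂ (G (π a (f (q v₀)) x)) (G (π a (f (q v₀)) x'))).im =
      Q x x') → ∀ v ∈ ball v₀ (r / 2), ‖fderiv ℂ (fun s => G (h s)) v‖ ≤ A

end TorM

/-- In some model of `f` at `y`, the covering of the fibre given by `core Γ m` is a torus. -/
def IsTorAtE (n p d m : ℕ) {Z Y : Type} [TopologicalSpace Z] [ChartedSpace (Cm n) Z]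
    [TopologicalSpace Y] [ChartedSpace (Cm p) Y] (f : Z → Y) (y : Y) : Prop :=
  ∃ (E Γ : Type) (_ : TopologicalSpace E) (_ : T2Space E) (_ : SimplyConnectedSpace E)
    (_ : Group Γ) (_ : MulAction Γ E) (_ : ContinuousConstSMul Γ E) (𝓕 : TK.Fam p d E Γ)
    (q : Cm p → E → Z) (χ : OpenPartialHomeomorph Y (Cm p)) (t : Cm p) (ht : t ∈ 𝓕.T)
    (_ : (core Γ m).FiniteIndex), TK.Model (n := n) f 𝓕 χ q ∧ χ.symm t = y ∧
      (sub (𝓕.at t ht) (core Γ m)).IsTor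

/-- **G1a** (helper603): the étale version of `TK.TocStmt`. -/
def TocEStmt : Prop :=
  ∀ (p d m : ℕ) (Z Y : Type) [TopologicalSpace Z] [T2Space Z] [ChartedSpace (Cm (p + d)) Z]
    [IsManifold 𝓘(ℂ, Cm (p + d)) ω Z] [TopologicalSpace Y] [T2Space Y] [ChartedSpace (Cm p) Y]
    [IsManifold 𝓘(ℂ, Cm p) ω Y] (f : Z → Y) (S : Set Y)
    (w : Chart (p + d) Z → Cm (p + d) → Matrix (Fin (p + d)) (Fin (p + d)) ℂ), 0 < d →
    ContMDiff 𝓘(ℂ, Cm (p + d)) 𝓘(ℂ, Cm p) ω f →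
    IsProperFibration (n := p + d) (p := p) f S → IsPreconnected Sᶜ → IsKahler w →
    (∀ y ∉ S, TK.TE.NDegE (p + d) p d m 0 f y) → (∃ y ∉ S, IsTorAtE (p + d) p d m f y) →
    ∀ y ∉ S, IsTorAtE (p + d) p d m f y

/-- **G1b** (helper603): the étale version of `TK.TFamStmt`, with bounds on tame slices. -/
def TorMStmt : Prop :=
  ∀ (p d m : ℕ) (Z Y : Type) [TopologicalSpace Z] [T2Space Z] [ChartedSpace (Cm (p + d)) Z]
    [IsManifold 𝓘(ℂ, Cm (p + d)) ω Z] [TopologicalSpace Y] [T2Space Y] [ChartedSpace (Cm p) Y]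
    [IsManifold 𝓘(ℂ, Cm p) ω Y] (f : Z → Y) (S : Set Y)
    (w : Chart (p + d) Z → Cm (p + d) → Matrix (Fin (p + d)) (Fin (p + d)) ℂ), 0 < d →
    ContMDiff 𝓘(ℂ, Cm (p + d)) 𝓘(ℂ, Cm p) ω f →
    IsProperFibration (n := p + d) (p := p) f S → IsPreconnected Sᶜ → IsKahler w →
    (∀ y ∉ S, IsTorAtE (p + d) p d m f y) → Sᶜ.Nonempty →
    ∃ (n : ℕ) (Q : (Fin n → ℝ) → (Fin n → ℝ) → ℝ) (ι : Type) (U : ι → Set Y)
      (π : ι → Y → ((Fin n → ℝ) ≃L[ℝ] EuclideanSpace ℂ (Fin d)))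
      (u : ι → Y → EuclideanSpace ℂ (Fin d) → Z),
      IsTorM (Cm (p + d)) (Cm p) d (KTame w) f S Q U π u

/-- **G1c** (helper603): a finite étale covering `F` of the fibre which is a torus. -/
def FibTEStmt : Prop :=
  ∀ (p d : ℕ) (Z Y : Type) [TopologicalSpace Z] [T2Space Z] [ChartedSpace (Cm (p + d)) Z]
    [IsManifold 𝓘(ℂ, Cm (p + d)) ω Z] [TopologicalSpace Y] [T2Space Y] [ChartedSpace (Cm p) Y]
    [IsManifold 𝓘(ℂ, Cm p) ω Y] (f : Z → Y) (S : Set Y), 0 < d →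
    ContMDiff 𝓘(ℂ, Cm (p + d)) 𝓘(ℂ, Cm p) ω f →
    IsProperFibration (n := p + d) (p := p) f S → TK.ABStmt → TK.TE.CoreStmt →
    ∀ y ∉ S, ∀ (F : Type) [TopologicalSpace F] [T2Space F] [ChartedSpace (Cm d) F] (i : F → Z),
      H511.Surf.IsFibre (Cm (p + d)) (Cm d) f y i → TK.IsParallel d F →
      ∃ m, IsTorAtE (p + d) p d m f y

section TorD

variable (E E' : Type) [NormedAddCommGroup E] [NormedSpace ℂ E]
  [NormedAddCommGroup E'] [NormedSpace ℂ E']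
variable {X Y : Type} [TopologicalSpace X] [ChartedSpace E X]
  [TopologicalSpace Y] [ChartedSpace E' Y]
variable {V : Type} [NormedAddCommGroup V] [InnerProductSpace ℂ V] [FiniteDimensional ℂ V]

/-- Cubic tensors on `V`. -/
abbrev Cub (V : Type) [NormedAddCommGroup V] [InnerProductSpace ℂ V] : Type := V [×3]→L[ℂ] ℂ

/-- helper511 #5583, without `rank`: `L a x β w`: near `x`, `β` is one of the lifts of the fibres to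
`V`, and `w` the corresponding third logarithmic derivatives of the theta function. -/
structure IsTorD {n : ℕ} (d : ℕ) (T : Tame (Fin d → ℂ) X) (f : X → Y) (S : Set Y)
    (Q : (Fin n → ℝ) → (Fin n → ℝ) → ℝ) {ι : Type} (U : ι → Set Y)
    (π : ι → Y → ((Fin n → ℝ) ≃L[ℝ] V)) (𝒜 : Set (Set X))
    (L : ι → X → (X → V) → (X → Cub V) → Prop) : Prop
    extends IsPeriodFamily E' S Q U π where
  dim : Module.finrank ℂ V = d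
  lift : ∀ a x, f x ∈ U a → ∃ β w, L a x β w
  bhol : ∀ a x β w, L a x β w → ContMDiffAt 𝓘(ℂ, E) 𝓘(ℂ, V) ω β x ∧
    ∀ ξ : E, mfderiv 𝓘(ℂ, E) 𝓘(ℂ, E') f x ξ = 0 → mfderiv 𝓘(ℂ, E) 𝓘(ℂ, V) β x ξ = 0 → ξ = 0
  pole : ∀ a x β w, L a x β w → ∀ (F : Finset (Set X)) (e : Set X → X → ℂ), (∀ D ∈ 𝒜, D ∈ F) →
    (∀ D ∈ F, IsLocalEq E D (e D) x) → ∃ H : X → Cub V,
      ContMDiffAt 𝓘(ℂ, E) 𝓘(ℂ, Cub V) ω H x ∧
      ∀ᶠ z in 𝓝 x, (∀ D ∈ 𝒜, z ∉ D) → (∏ D ∈ F, e D z) ^ 3 • w z = H z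
  near : ∀ a x β w, L a x β w → ∀ᶠ z in 𝓝 x, L a z β w
  change : ∀ a b x, f x ∈ U a → f x ∈ U b → ∀ β w β' w', L a x β w → L b x β' w' →
    ∃ (G : V ≃L[ℂ] V) (c : V), IsPeriodChange Q (π a (f x)) (π b (f x)) G ∧
      ∀ᶠ z in 𝓝 x, f z = f x → β' z = G (β z) + c ∧ ((∀ D ∈ 𝒜, z ∉ D) →
        w z = (w' z).compContinuousLinearMap fun _ => (G : V →L[ℂ] V))
  bound : ∃ M : ℕ, ∀ ρ K : ℝ, 0 < ρ → 0 < K → ∃ B : ℝ, ∀ (a : ι) (q : (Fin d → ℂ) → X)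
    (v₀ : Fin d → ℂ), IsPolydisc E f q v₀ ρ → T K q v₀ ρ → f (q v₀) ∈ U a →
    (∀ v ∈ ball v₀ ρ, ∀ D ∈ 𝒜, q v ∉ D) → ∃ β w, L a (q v₀) β w ∧
      ∀ G : V ≃L[ℂ] V, (∀ x x', (inner ℂ (G (π a (f (q v₀)) x)) (G (π a (f (q v₀)) x'))).im =
        Q x x') → ‖fderiv ℂ (fun u => G (β (q u))) v₀‖ ≤ B ∧
        ∀ m : Fin d → (V →L[ℂ] ℂ), (∀ i, ‖m i‖ ≤ 1) →
          ‖minor m (fun u => G (β (q u))) v₀‖ ^ M *
            ‖(w (q v₀)).compContinuousLinearMap fun _ => (G.symm : V →L[ℂ] V)‖ ≤ B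

/-- The rank of the third logarithmic derivatives `w` on the fibre over `y` is at least `r`. -/
def RankD {d : ℕ} (f : X → Y) {ι : Type} (U : ι → Set Y) (𝒜 : Set (Set X))
    (L : ι → X → (X → V) → (X → Cub V) → Prop) (r : ℕ) (y : Y) : Prop :=
  ∃ a, y ∈ U a ∧ ∃ (q : (Fin d → ℂ) → X) (v₀ : Fin d → ℂ),
    ContMDiffAt 𝓘(ℂ, Fin d → ℂ) 𝓘(ℂ, E) ω q v₀ ∧ (∀ᶠ v in 𝓝 v₀, f (q v) = y) ∧
    (∀ D ∈ 𝒜, q v₀ ∉ D) ∧ ∀ β w, L a (q v₀) β w → ∃ l : Fin r → (Cub V →L[ℂ] ℂ),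
      Function.Surjective fun (ξ : Fin d → ℂ) (k : Fin r) =>
        fderiv ℂ (fun v => l k (w (q v))) v₀ ξ

end TorD

/-- **D5 + D6** (helper511). -/
def HasDStmt : Prop :=
  ∀ (p d r n : ℕ) (X Y : Type) [TopologicalSpace X] [ChartedSpace (Cm (p + d)) X]
    [IsManifold 𝓘(ℂ, Cm (p + d)) ω X] [TopologicalSpace Y] [ChartedSpace (Cm p) Y]
    [IsManifold 𝓘(ℂ, Cm p) ω Y] (T : Tame (Cm d) X) (f : X → Y) (S : Set Y)
    (Q : (Fin n → ℝ) → (Fin n → ℝ) → ℝ) (ι : Type) (U : ι → Set Y)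
    (π : ι → Y → ((Fin n → ℝ) ≃L[ℝ] EuclideanSpace ℂ (Fin d))) (𝒜 : Set (Set X))
    (L : ι → X → (X → EuclideanSpace ℂ (Fin d)) → (X → Cub (EuclideanSpace ℂ (Fin d))) → Prop)
    (e₀ : Cm (p + d) ≃L[ℂ] (Cm p × Cm d)) (Δ : Set X → ℝ), 0 < d →
    ContMDiff 𝓘(ℂ, Cm (p + d)) 𝓘(ℂ, Cm p) ω f →
    IsTorD (Cm (p + d)) (Cm p) d T f S Q U π 𝒜 L → 𝒜.Finite →
    (∀ D ∈ 𝒜, IsPrimeDivisor (Cm (p + d)) D) → (∀ D, 0 ≤ Δ D) → (∀ D ∈ 𝒜, 0 < Δ D) → ∀ y ∉ S,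
    RankD (Cm (p + d)) (d := d) f U 𝒜 L r y → HasFormsT T f S e₀ Δ r y

/-- **D2c + D4 + D10** (assembly; helper125, helper969, helper152): the theta functions of the divisor
`∑_{D ∈ 𝒜} D` on the fibres. `S'`: the fibres contained in a component of the divisor. `w` is the
third logarithmic derivative of the local equations, up to holomorphic cubic tensors on the fibres,
and symmetric with symmetric derivative along the fibres (for D7). -/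
def TorDStmt : Prop :=
  ∀ (p d n : ℕ) (X Y : Type) [TopologicalSpace X] [T2Space X] [ConnectedSpace X]
    [ChartedSpace (Cm (p + d)) X] [IsManifold 𝓘(ℂ, Cm (p + d)) ω X] [TopologicalSpace Y]
    [T2Space Y] [ChartedSpace (Cm p) Y] [IsManifold 𝓘(ℂ, Cm p) ω Y] (T : Tame (Cm d) X)
    (f : X → Y) (S : Set Y) (Q : (Fin n → ℝ) → (Fin n → ℝ) → ℝ) (ι : Type) (U : ι → Set Y)
    (π : ι → Y → ((Fin n → ℝ) ≃L[ℝ] EuclideanSpace ℂ (Fin d)))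
    (u : ι → Y → EuclideanSpace ℂ (Fin d) → X) (𝒜 : Set (Set X)), 0 < d →
    ContMDiff 𝓘(ℂ, Cm (p + d)) 𝓘(ℂ, Cm p) ω f → IsClosed S → IsPreconnected Sᶜ →
    (∀ y ∉ S, IsConnected (f ⁻¹' {y})) →
    IsTorM (Cm (p + d)) (Cm p) d T f S Q U π u → 𝒜.Finite →
    (∀ D ∈ 𝒜, J.IsPrime (Cm (p + d)) D) → (∀ D ∈ 𝒜, ∀ y ∉ S, ¬ f ⁻¹' {y} ⊆ D) →
    ∃ L : ι → X → (X → EuclideanSpace ℂ (Fin d)) → (X → Cub (EuclideanSpace ℂ (Fin d))) → Prop,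
      IsTorD (Cm (p + d)) (Cm p) d T f S Q U π 𝒜 L ∧
      ∀ a, ∀ y ∈ U a, ∃ (θ : EuclideanSpace ℂ (Fin d) → ℂ)
        (A : EuclideanSpace ℂ (Fin d) →L[ℂ] EuclideanSpace ℂ (Fin d)),
        IsTheta (π a y) (fun v g => ∃ e : Set X → X → ℂ,
            (∀ D ∈ 𝒜, J.IsLocalEq (Cm (p + d)) D (e D) (u a y v)) ∧
            g = fun v' => ∏ᶠ (D : Set X) (_ : D ∈ 𝒜), e D (u a y v')) θ A ∧
        ∀ v, θ v ≠ 0 → ∀ β w, L a (u a y v) β w → ∃ (G : EuclideanSpace ℂ (Fin d) ≃L[ℂ]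
          EuclideanSpace ℂ (Fin d)) (c : EuclideanSpace ℂ (Fin d)),
          ∀ᶠ z in 𝓝 v, β (u a y z) = G z + c ∧
            ∀ x₁ x₂ x₃, w (u a y z) ![G x₁, G x₂, G x₃] = phi θ z x₁ x₂ x₃

/-- **D8**: the generic rank of `w` on the fibres. -/
def GenRankStmt : Prop :=
  ∀ (p d n : ℕ) (X Y : Type) [TopologicalSpace X] [T2Space X]
    [ChartedSpace (Cm (p + d)) X] [IsManifold 𝓘(ℂ, Cm (p + d)) ω X] [TopologicalSpace Y]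
    [T2Space Y] [ChartedSpace (Cm p) Y] [IsManifold 𝓘(ℂ, Cm p) ω Y] (T : Tame (Cm d) X)
    (f : X → Y) (S : Set Y) (Q : (Fin n → ℝ) → (Fin n → ℝ) → ℝ) (ι : Type) (U : ι → Set Y)
    (π : ι → Y → ((Fin n → ℝ) ≃L[ℝ] EuclideanSpace ℂ (Fin d))) (𝒜 : Set (Set X))
    (L : ι → X → (X → EuclideanSpace ℂ (Fin d)) → (X → Cub (EuclideanSpace ℂ (Fin d))) → Prop),
    0 < d → ContMDiff 𝓘(ℂ, Cm (p + d)) 𝓘(ℂ, Cm p) ω f → IsSmallSet (Cm p) S →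
    IsPreconnected Sᶜ → Sᶜ.Nonempty → IsTorD (Cm (p + d)) (Cm p) d T f S Q U π 𝒜 L → 𝒜.Finite →
    (∀ D ∈ 𝒜, J.IsPrime (Cm (p + d)) D) → (∀ D ∈ 𝒜, ∀ y ∉ S, ¬ f ⁻¹' {y} ⊆ D) →
    (∀ y ∉ S, IsConnected (f ⁻¹' {y})) →
    ∃ (r : ℕ) (S' : Set Y), S ⊆ S' ∧ IsSmallSet (Cm p) S' ∧ ∀ y ∉ S',
      RankD (Cm (p + d)) (d := d) f U 𝒜 L r y ∧ ¬ RankD (Cm (p + d)) (d := d) f U 𝒜 L (r + 1) y

/-- **D8'**: fibres contained in a prime divisor. -/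
def FibInStmt : Prop :=
  ∀ (p d : ℕ) (X Y : Type) [TopologicalSpace X] [T2Space X] [CompactSpace X] [ConnectedSpace X]
    [ChartedSpace (Cm (p + d)) X] [IsManifold 𝓘(ℂ, Cm (p + d)) ω X] [TopologicalSpace Y]
    [T2Space Y] [ChartedSpace (Cm p) Y] [IsManifold 𝓘(ℂ, Cm p) ω Y] (f : X → Y) (S : Set Y)
    (D : Set X), 0 < d → ContMDiff 𝓘(ℂ, Cm (p + d)) 𝓘(ℂ, Cm p) ω f →
    IsProperFibration (n := p + d) (p := p) f S → IsSmallSet (Cm p) S →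
    J.IsPrime (Cm (p + d)) D → ∃ S' : Set Y, S ⊆ S' ∧ IsSmallSet (Cm p) S' ∧
      ∀ y ∉ S', ¬ f ⁻¹' {y} ⊆ D

/-- **D7** (helper349): sections on (a finite étale covering `F` of) the fibre over `y`. -/
def KodRDStmt : Prop :=
  ∀ (p d n : ℕ) (X Y : Type) [TopologicalSpace X] [T2Space X]
    [ChartedSpace (Cm (p + d)) X] [IsManifold 𝓘(ℂ, Cm (p + d)) ω X] [TopologicalSpace Y]
    [T2Space Y] [ChartedSpace (Cm p) Y] [IsManifold 𝓘(ℂ, Cm p) ω Y]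
    (f : X → Y) (Δ : Set X → ℝ) (y : Y) (P : (Fin n → ℝ) ≃L[ℝ] EuclideanSpace ℂ (Fin d))
    (u : EuclideanSpace ℂ (Fin d) → X) (r : ℕ) (θ : EuclideanSpace ℂ (Fin d) → ℂ)
    (A : EuclideanSpace ℂ (Fin d) →L[ℂ] EuclideanSpace ℂ (Fin d)) (F : Type)
    [TopologicalSpace F] [T2Space F] [ChartedSpace (Cm d) F] (i : F → X), 0 < d →
    ContMDiff 𝓘(ℂ, Cm (p + d)) 𝓘(ℂ, Cm p) ω f → J.IsSNC (Cm (p + d)) Δ →
    H511.Surf.IsFibre (Cm (p + d)) (Cm d) f y i →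
    ContMDiff 𝓘(ℂ, EuclideanSpace ℂ (Fin d)) 𝓘(ℂ, Cm (p + d)) ω u → range u = f ⁻¹' {y} →
    (∀ v, Function.Injective (mfderiv 𝓘(ℂ, EuclideanSpace ℂ (Fin d)) 𝓘(ℂ, Cm (p + d)) u v)) →
    (∀ v (m : Fin n → ℤ), u (v + P (zr m)) = u v) →
    IsTheta P (fun v g => ∃ e : Set X → X → ℂ,
      (∀ D ∈ {D | Δ D ≠ 0}, J.IsLocalEq (Cm (p + d)) D (e D) (u v)) ∧
      g = fun v' => ∏ᶠ (D : Set X) (_ : D ∈ {D | Δ D ≠ 0}), e D (u v')) θ A →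
    (∀ v, θ v ≠ 0 → ¬ RkGE (r + 1) (phi θ) v) →
    TZ.S.kodR (Cm (p + d)) (Cm d) i Δ ≤ ((r : ℕ∞) : WithBot ℕ∞)

/-- **T-Delta**, the goal (stage 1). -/
def TDStmt : Prop :=
  ∀ (p d : ℕ) (X Y : Type) [tX : TopologicalSpace X] [cX : ChartedSpace (Cm (p + d)) X]
    [tY : TopologicalSpace Y] [cY : ChartedSpace (Cm p) Y] (f : X → Y) (Δ : Set X → ℝ), 0 < d →
    H511.Surf.IsFibration (Cm (p + d)) (Cm p) f Δ →
    (∃ w : Chart (p + d) X → Cm (p + d) → Matrix (Fin (p + d)) (Fin (p + d)) ℂ, IsKahler w) →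
    ∃ H : ℕ → Set Y, (∀ k, IsThinSet (Cm p) (H k)) ∧ ∀ y, (∀ k, y ∉ H k) →
      ∀ (F : Type) [TopologicalSpace F] [T2Space F] [ChartedSpace (Cm d) F] (i : F → X),
        H511.Surf.IsFibre (Cm (p + d)) (Cm d) f y i → TK.IsParallel d F →
        TZ.S.kodR (Cm (p + d)) (Cm d) i Δ + TZ.S.kodF (p + d) p Δ (id : X → X) f ≤
          TZ.S.kodX (Cm (p + d)) Δ

end Vale.Agent.P281.H64.TD
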